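import Crest.Agent.N76.II.St4.Avg

/-! # Row 76 (S0101), leaf `Stop` (helper6). -/

set_option autoImplicit false

open MeasureTheory Set Metric
open scoped ENNReal RealInnerProductSpace

namespace Crest.Agent.N76.II

open Crest.Agent.N76.Red (V ph)
open Crest.Agent.N76.G

namespace St4

variable {d : ℕ}

theorem bavg_sum {W : ℕ → V d × ℝ → ℝ} (hW : ∀ j, Continuous (W j)) (r : ℝ) (u : V d × ℝ)
    (s : Finset ℕ) : bavg (fun u' => ∑ j ∈ s, W j u') r u = ∑ j ∈ s, bavg (W j) r u := by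
  unfold bavg
  rw [integral_finsetSum _ fun j _ =>
    (hW j).continuousOn.integrableOn_compact (isCompact_closedBall u r), Finset.sum_div]

theorem exists_shell {a τ : ℝ} (h : a < τ) (n : ℕ) (h' : τ ≤ a * 2 ^ n) :
    ∃ i < n, a * 2 ^ i ≤ τ ∧ τ ≤ 2 * (a * 2 ^ i) := by
  induction n with
  | zero => simp at h'; linarith
  | succ n ih =>
    rcases le_total τ (a * 2 ^ n) with h1 | h1
    · obtain ⟨i, hi, h2⟩ := ih h1
      exact ⟨i, by omega, h2⟩
    · exact ⟨n, by omega, h1, by rw [pow_succ] at h'; linarith⟩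

theorem exists_root4 {x : ℝ} (hx : 0 < x) : 0 < √√x ∧ √√x ^ 4 = x := by
  refine ⟨by positivity, ?_⟩
  rw [show 4 = 2 * 2 from rfl, pow_mul, Real.sq_sqrt (Real.sqrt_nonneg _), Real.sq_sqrt hx.le]

open Classical in
/-- the abstract form: `g` is the inverse local scale -/
theorem core (hd : 1 ≤ d) : ∃ C : ℝ, 0 ≤ C ∧ ∀ (ι : Type) (𝒞 : Finset ι) (p : ι → V d × ℝ)
    (K a b r : ℝ) (ζ : V d) (g : V d × ℝ → ℝ), 1 ≤ K → ‖ζ‖ ≤ 4 → K ^ 2 ≤ a → a ≤ b →
    (64 * d + 128) * b ≤ r → Continuous g → (∀ u, 1 / b ≤ g u) →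
    (∀ u u', g u ≤ Real.exp (dist u u' / r) * g u') →
    (∀ u (y : ℝ), 0 < y → y ^ 2 = g u → ∑ c ∈ 𝒞, Real.exp (-(dist u (p c) / r)) ≤
      Real.exp 1 * 5 ^ (d + 1) * (r ^ (d + 1) * y ^ (d + 2))) →
    ∃ (J : ℕ) (js : ι → ℕ) (Ω : ℕ → V d × ℝ → ℝ),
      a * 2 ^ J ≤ b ∧ (∀ c ∈ 𝒞, js c ≤ J) ∧
      (∀ c ∈ 𝒞, ∑ c' ∈ 𝒞.filter (fun c' => js c' = js c ∧ 2 * a < |(p c').2 - (p c).2| ∧
          |(p c').2 - (p c).2| ≤ a * 2 ^ js c), Gs K (Real.pi / 4) (p c) (p c') ζ ≤ C) ∧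
      (∀ j, Nice (Ω j) 1 (a / (10 * K))) ∧
      (∀ c ∈ 𝒞, ∀ u, Real.exp (-(K * ‖(lin u ζ - lin (p c) ζ).1‖ + |u.2 - (p c).2|) /
          (a * 2 ^ js c)) ≤ Ω (js c) u) ∧
      ∀ u, bavg (fun u' => ∑ j ∈ Finset.range (J + 1), Ω j u' / (a * 2 ^ j)) r u ≤ C * g u := by
  obtain ⟨l, hl1, hl4⟩ : ∃ l : ℝ, 1 < l ∧ l ^ 4 = 2 := by
    refine ⟨√√2, ?_, (exists_root4 two_pos).2⟩
    rw [Real.lt_sqrt zero_le_one, Real.lt_sqrt (by norm_num)]
    norm_num
  have hl0 : 0 < l := by linarith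
  have hL : 0 ≤ l / (l - 1) := div_nonneg hl0.le (by linarith)
  have hc1 := c1_nonneg d
  refine ⟨(Real.exp 2 * 4 + c1 d) * (l / (l - 1)), by positivity,
    fun ι 𝒞 p K a b r ζ g hK hζ hKa hab hbr hgc hgb hgl hcnt => ?_⟩
  have hK0 : 0 < K := by linarith
  have ha : 0 < a := lt_of_lt_of_le (by positivity) hKa
  have hb : 0 < b := ha.trans_le hab
  have hd0 : (0 : ℝ) ≤ d := Nat.cast_nonneg d
  have hr : 0 < r := lt_of_lt_of_le (by positivity) hbr
  have hg : ∀ u, 0 < g u := fun u => lt_of_lt_of_le (by positivity) (hgb u)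
  obtain ⟨γ, hγ, hγ4, hγc⟩ : ∃ γ : V d × ℝ → ℝ, (∀ u, 0 < γ u) ∧ (∀ u, γ u ^ 4 = g u) ∧
      Continuous γ := ⟨fun u => √√(g u), fun u => (exists_root4 (hg u)).1,
        fun u => (exists_root4 (hg u)).2, hgc.sqrt.sqrt⟩
  have hγl : ∀ u u', γ u ≤ Real.exp (dist u u' / r) * γ u' := fun u u' => by
    have := hγ u'
    rw [← pow_le_pow_iff_left₀ (hγ u).le (by positivity) (show 4 ≠ 0 by norm_num), mul_pow, hγ4,
      hγ4]
    exact (hgl u u').trans (mul_le_mul_of_nonneg_right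
      (le_self_pow₀ (Real.one_le_exp (by positivity)) (by norm_num)) (hg u').le)
  obtain ⟨σ₀, hσ₀, hσ₀4⟩ : ∃ σ₀ : ℝ, 0 < σ₀ ∧ σ₀ ^ 4 = a := ⟨_, exists_root4 ha⟩
  set σ : ℕ → ℝ := fun j => σ₀ * l ^ j with hσdef
  have hσ : ∀ j, 0 < σ j := fun j => by simp only [hσdef]; positivity
  have hσ4 : ∀ j, σ j ^ 4 = a * 2 ^ j := fun j => by
    simp only [hσdef]; rw [mul_pow, hσ₀4, ← pow_mul, mul_comm j, pow_mul, hl4]
  have hσa : ∀ j, a ≤ σ j ^ 4 := fun j => by
    rw [hσ4]; exact le_mul_of_one_le_right ha.le (one_le_pow₀ one_le_two)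
  have htele : ∀ u n, ∑ j ∈ Finset.range n, σ j * γ u / (1 + σ j * γ u) ^ 2 ≤ l / (l - 1) :=
    fun u n => by
      refine le_of_eq_of_le (Finset.sum_congr rfl fun j _ => ?_) (tele hl1 (mul_pos hσ₀ (hγ u)) n)
      simp only [hσdef, mul_right_comm σ₀]
  obtain ⟨J, hJ1, hJ2⟩ := exists_nat_pow_near ((one_le_div ha).2 hab) one_lt_two
  rw [le_div_iff₀' ha] at hJ1
  rw [div_lt_iff₀' ha, pow_succ] at hJ2
  have hσb : ∀ j ≤ J, σ j ^ 4 ≤ b := fun j hj => by
    rw [hσ4]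
    exact (mul_le_mul_of_nonneg_left (pow_le_pow_right₀ one_le_two hj) ha.le).trans hJ1
  have hFJ : ∀ u, 1 ≤ FF K ζ 𝒞 p γ (σ J) u := fun u => by
    refine le_add_of_nonneg_of_le (mul_nonneg (mul_nonneg (mt_nonneg u) (by positivity))
      (hh_pos d (mul_pos (hσ J) (hγ u))).le) (one_le_TT ?_)
    rw [mul_pow, hσ4, hγ4]
    refine le_trans ?_ (mul_le_mul_of_nonneg_left (hgb u) (by positivity))
    rw [mul_one_div, div_le_div_iff₀ two_pos hb]
    linarith
  have hex : ∀ c, ∃ j, 1 ≤ FF K ζ 𝒞 p γ (σ j) (p c) := fun c => ⟨J, hFJ _⟩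
  have hF0 := fun j => FF_nonneg (ζ := ζ) (𝒞 := 𝒞) (p := p) hK0.le (hσ j) hγ
  have hFl := fun j => FF_lip (ζ := ζ) (𝒞 := 𝒞) (p := p) hK0.le (hσ j) hr hγ hγl
  have hΩc : ∀ j, Continuous fun u => min 1 (FF K ζ 𝒞 p γ (σ j) u) := fun j =>
    continuous_const.min (continuous_FF (hσ j) hγ hγc)
  refine ⟨J, fun c => Nat.find (hex c), fun j u => min 1 (FF K ζ 𝒞 p γ (σ j) u), hJ1,
    fun c _ => Nat.find_min' _ (hFJ _), fun c _ => ?_, fun j => ⟨hΩc j, fun u =>
      ⟨le_min zero_le_one (hF0 j u), min_le_left _ _⟩, fun u u' => ?_⟩, fun c _ u => ?_,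
    fun u => ?_⟩
  · calc _ ≤ ∑ c' ∈ 𝒞, ∑ i ∈ Finset.range (Nat.find (hex c)), Real.exp 2 *
          (Real.exp (-(nm K ζ (p c) (p c') / (2 * σ i ^ 4))) * (K / σ i ^ 2) ^ d) := by
          rw [Finset.sum_filter]
          refine Finset.sum_le_sum fun c' _ => ?_
          split_ifs with h
          · obtain ⟨i, hi, h1, h2⟩ := exists_shell (a := a) (by linarith [h.2.1]) _ h.2.2
            rw [← hσ4, abs_sub_comm] at h1 h2
            exact (Gs_le hK0 (hσ i) (hKa.trans (hσa i)) ζ _ _ h1 h2).trans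
              (Finset.single_le_sum (f := fun i => Real.exp 2 *
                (Real.exp (-(nm K ζ (p c) (p c') / (2 * σ i ^ 4))) * (K / σ i ^ 2) ^ d))
                (fun i _ => by positivity) (Finset.mem_range.2 hi))
          · positivity
      _ ≤ ∑ i ∈ Finset.range (Nat.find (hex c)),
          Real.exp 2 * 4 * (σ i * γ (p c) / (1 + σ i * γ (p c)) ^ 2) := by
          rw [Finset.sum_comm]
          refine Finset.sum_le_sum fun i hi => ?_
          rw [← Finset.mul_sum, ← Finset.sum_mul, mul_assoc]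
          refine mul_le_mul_of_nonneg_left ?_ (Real.exp_pos _).le
          exact light d (mul_pos (hσ i) (hγ _)) (mul_nonneg (mt_nonneg _) (by positivity))
            (not_le.1 (Nat.find_min (hex c) (Finset.mem_range.1 hi)))
      _ ≤ _ := by
          rw [← Finset.mul_sum]
          exact mul_le_mul (by linarith) (htele _ _) (Finset.sum_nonneg fun i _ => by
            have := mul_pos (hσ i) (hγ (p c)); positivity) (by positivity)
  · have he : 1 ≤ Real.exp (dist u u' / (a / (10 * K))) := Real.one_le_exp (by positivity)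
    rw [mul_min_of_nonneg _ _ (by positivity), mul_one]
    refine min_le_min he ((hFl j u u').trans (mul_le_mul_of_nonneg_right ?_ (hF0 j u')))
    rw [Real.exp_le_exp, div_div_eq_mul_div]
    have h1 : nm K ζ u u' / (2 * σ j ^ 4) ≤ dist u u' * (5 * K) / a := by
      refine (div_le_div₀ (by positivity) (nm_le_dist hK hζ u u') (by positivity)
        (mul_le_mul_of_nonneg_left (hσa j) zero_le_two)).trans_eq ?_
      field_simp; ring
    have h2 : (4 * d + 8) * (dist u u' / r) ≤ dist u u' * (5 * K) / a := by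
      rw [← mul_div_assoc, mul_comm, mul_div_assoc, mul_div_assoc]
      refine mul_le_mul_of_nonneg_left ?_ dist_nonneg
      rw [div_le_div_iff₀ hr ha]
      nlinarith [mul_le_mul_of_nonneg_left hab hd0, mul_nonneg hd0 hb.le]
    linarith [show dist u u' * (10 * K) / a = 2 * (dist u u' * (5 * K) / a) by ring]
  · have hj : Nat.find (hex c) ≤ J := Nat.find_min' _ (hFJ _)
    have h0 := Nat.find_spec (hex c)
    beta_reduce
    generalize Nat.find (hex c) = j at hj h0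
    change Real.exp (-nm K ζ u (p c) / (a * 2 ^ j)) ≤ _
    rw [← hσ4, nm_comm, neg_div]
    have hs : 0 < σ j ^ 4 := pow_pos (hσ j) 4
    have hn := nm_nonneg hK0.le ζ (p c) u
    refine le_min (Real.exp_le_one_iff.2 (neg_nonpos.2 (by positivity))) ?_
    rw [Real.exp_neg, inv_le_iff_one_le_mul₀' (Real.exp_pos _)]
    refine h0.trans ((hFl j (p c) u).trans (mul_le_mul_of_nonneg_right ?_ (hF0 j u)))
    rw [Real.exp_le_exp]
    have h2 : (4 * d + 8) * (dist (p c) u / r) ≤ nm K ζ (p c) u / (2 * σ j ^ 4) := by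
      rw [← mul_div_assoc, div_le_div_iff₀ hr (by positivity)]
      have h3 := mul_le_mul (dist_le_nm hK hζ (p c) u) (hσb j hj) hs.le (by positivity)
      have h4 := mul_le_mul_of_nonneg_left h3 (show (0 : ℝ) ≤ 8 * d + 16 by positivity)
      have h5 := mul_le_mul_of_nonneg_left hbr hn
      linarith
    linarith [show nm K ζ (p c) u / σ j ^ 4 = 2 * (nm K ζ (p c) u / (2 * σ j ^ 4)) by field_simp]
  · simp only [← hσ4]
    rw [bavg_sum fun j => (hΩc j).div_const _]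
    have hy := hγ u
    refine (Finset.sum_le_sum fun j hj => bavg_FF_le hd hK hζ (hσ j) ?_ hγ hγc hγl u
      (hcnt u _ (by positivity) (by rw [← pow_mul, hγ4]))).trans ?_
    · have := hσb j (Nat.lt_succ_iff.1 (Finset.mem_range.1 hj))
      nlinarith [mul_nonneg hd0 hb.le]
    · rw [← Finset.mul_sum, hγ4]
      have := hg u
      refine (mul_le_mul_of_nonneg_left (htele _ _) (by positivity)).trans ?_
      rw [mul_right_comm]
      gcongr
      linarith [Real.exp_pos 2]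

end St4

/-- **Stop** -/
theorem stop (d : ℕ) (hd : 1 ≤ d) : Stop d := by
  obtain ⟨C, hC, H⟩ := St4.core hd
  refine ⟨C, 64 * d + 128, hC,
    fun R B K N hR hB hK hKB hN hNB ι X p w hreg 𝒞 hms hsep ζ hζ rlo hrlo => ?_⟩
  have hS := one_le_Ssc hR (d + 1)
  have hd0 : (0 : ℝ) ≤ d := Nat.cast_nonneg d
  have hB1 : 1 ≤ B := by linarith
  have hN0 : 0 < N := lt_of_lt_of_le (by positivity) hN
  generalize Ssc (d + 1) R = S at *
  have hq := gam_exp_pos d
  have hNq : 0 < N ^ (2 / ((d : ℝ) + 2)) := by positivity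
  have hr : 0 < S ^ 2 * B ^ 3 := by positivity
  have hK2 : K ^ 2 ≤ rlo := by rwa [hrlo, le_div_iff₀ (by positivity)]
  have hab : rlo ≤ S ^ 2 * B ^ 2 := by
    rw [hrlo]
    exact (div_le_self (by positivity) (one_le_pow₀ hB1)).trans
      (le_mul_of_one_le_right (by positivity) (one_le_pow₀ hB1))
  have hbr : (64 * d + 128) * (S ^ 2 * B ^ 2) ≤ S ^ 2 * B ^ 3 :=
    (mul_le_mul_of_nonneg_right hB (by positivity)).trans_eq (by ring)
  have hv := fun u => vv_nonneg (p := p) hreg.1 hr u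
  obtain ⟨J, js, Ω, h1, h2, h3, h4, h5, h6⟩ := H ι 𝒞 p K rlo (S ^ 2 * B ^ 2) (S ^ 2 * B ^ 3) ζ
    (fun u => vv X p w (S ^ 2 * B ^ 3) u / N ^ (2 / ((d : ℝ) + 2)) + 1 / (S ^ 2 * B ^ 2)) hK hζ hK2
    hab hbr (((continuous_vv _).div_const _).add continuous_const)
    (fun u => le_add_of_nonneg_left (div_nonneg (hv u) hNq.le))
    (fun u u' => by
      rw [mul_add, ← mul_div_assoc]
      exact add_le_add (div_le_div_of_nonneg_right (vv_lip hreg.1 hr u u') hNq.le)
        (le_mul_of_one_le_left (by positivity) (Real.one_le_exp (by positivity))))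
    (fun u y hy hy2 => by
      have hKr : K ≤ S ^ 2 * B ^ 3 := by
        have : 0 < S ^ 2 * B ^ 2 := by positivity
        nlinarith [le_self_pow₀ hK two_ne_zero, mul_nonneg hd0 this.le]
      have hc := St4.count_le hreg.1 (by linarith) hKr hms hsep u
      have hm := dens_nonneg (p := p) hreg.1 hr u
      have h7 : dens X p w (S ^ 2 * B ^ 3) u / N ≤ y ^ (d + 2) := by
        rw [← Real.rpow_le_rpow_iff (by positivity) (by positivity) hq, Real.div_rpow hm hN0.le,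
          ← Real.rpow_natCast y, ← Real.rpow_mul hy.le,
          show ((d + 2 : ℕ) : ℝ) * (2 / ((d : ℝ) + 2)) = (2 : ℕ) by push_cast; field_simp,
          Real.rpow_natCast, hy2]
        exact le_add_of_nonneg_right (by positivity)
      rw [div_le_iff₀' hN0] at h7
      refine le_of_mul_le_mul_left (hc.trans ?_) hN0
      refine (mul_le_mul_of_nonneg_left (mul_le_mul_of_nonneg_left h7 (by positivity))
        (by positivity)).trans_eq ?_
      ring)
  refine ⟨J, js, Ω, h1, h2, h3, h4, h5, fun u => ?_⟩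
  refine (mul_le_mul_of_nonneg_left (h6 u) hNq.le).trans ?_
  rw [mul_left_comm, mul_add, mul_div_cancel₀ _ hNq.ne']
  refine mul_le_mul_of_nonneg_left (add_le_add le_rfl ?_) hC
  have h8 : N ^ (2 / ((d : ℝ) + 2)) ≤ B :=
    (Real.rpow_le_rpow hN0.le hNB hq.le).trans (Real.rpow_le_self_of_one_le hB1 (gam_exp_le_one d))
  refine (mul_le_mul_of_nonneg_right h8 (by positivity)).trans_eq ?_
  field_simp

end Crest.Agent.N76.II
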