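import Crest.Agent.N76.II.St4.Scal

/-! # Row 76 (S0101), leaf `Stop`: tile weights and their averages (helper6). -/

set_option autoImplicit false

open MeasureTheory Set Metric
open scoped ENNReal RealInnerProductSpace

namespace Crest.Agent.N76.II.St4

open Crest.Agent.N76.Red (V ph)
open Crest.Agent.N76.G

variable {d : ℕ} {ι : Type*}

/-- `∫ exp (-|x|) dx · ∫ exp (-|t|) dt` -/
noncomputable def c0 (d : ℕ) : ℝ := (∫ x : V d, Real.exp (-‖x‖)) * ∫ x : ℝ, Real.exp (-‖x‖)

theorem c0_nonneg (d : ℕ) : 0 ≤ c0 d :=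
  mul_nonneg (integral_nonneg fun _ => (Real.exp_pos _).le)
    (integral_nonneg fun _ => (Real.exp_pos _).le)

theorem integral_nm {K l : ℝ} (hK : 1 ≤ K) (hl : 0 < l) {ζ : V d} (hζ : ‖ζ‖ ≤ 4) (q : V d × ℝ) :
    Integrable (fun u => Real.exp (-(nm K ζ u q / l))) ∧
    ∫ u, Real.exp (-(nm K ζ u q / l)) = (l / K) ^ d * l * c0 d := by
  have hK0 : 0 < K := by linarith
  have hi : Integrable (fun u => Real.exp (-(nm K ζ u q / l))) := by
    refine (B.integral_exp_neg_dist volume q (l := 8 * l) (by positivity)).1.mono'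
      ((continuous_nm K ζ q).div_const l).neg.rexp.aestronglyMeasurable (.of_forall fun u => ?_)
    rw [Real.norm_eq_abs, abs_of_pos (Real.exp_pos _), Real.exp_le_exp, neg_le_neg_iff,
      div_le_div_iff₀ (by positivity) hl]
    nlinarith [dist_le_nm hK hζ u q]
  refine ⟨hi, ?_⟩
  have e : ∀ (x : V d) (t : ℝ), Real.exp (-(nm K ζ (x, t) q / l)) =
      Real.exp (-(dist x (q.1 - (2 * (t - q.2)) • ζ) / (l / K))) * Real.exp (-(dist t q.2 / l)) := by
    intro x t
    rw [← Real.exp_add, nm, lin_sub, dist_eq_norm, Real.dist_eq, sub_sub_eq_add_sub,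
      add_sub_right_comm]
    congr 1
    field_simp
    ring
  rw [Measure.volume_eq_prod] at hi ⊢
  rw [integral_prod_symm _ hi]
  simp only [e, integral_mul_const,
    (B.integral_exp_neg_dist (volume : Measure (V d)) _ (div_pos hl hK0)).2]
  rw [integral_const_mul, (B.integral_exp_neg_dist (volume : Measure ℝ) _ hl).2, c0]
  simp only [finrank_euclideanSpace, Fintype.card_fin, Module.finrank_self, pow_one]
  ring

theorem setIntegral_nm_le {K s r : ℝ} (hK : 1 ≤ K) (hs : 0 < s) (hsr : 32 * s ≤ r) {ζ : V d}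
    (hζ : ‖ζ‖ ≤ 4) (u q : V d × ℝ) :
    ∫ u' in closedBall u r, Real.exp (-(nm K ζ u' q / (2 * s))) ≤
      Real.exp 1 * Real.exp (-(dist u q / r)) * ((4 * s / K) ^ d * (4 * s) * c0 d) := by
  have hr : 0 < r := by linarith
  obtain ⟨i1, i2⟩ := integral_nm hK (l := 4 * s) (by positivity) hζ q
  calc _ ≤ ∫ u' in closedBall u r,
        Real.exp 1 * Real.exp (-(dist u q / r)) * Real.exp (-(nm K ζ u' q / (4 * s))) := by
        refine setIntegral_mono_on (integral_nm hK (by positivity) hζ q).1.integrableOn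
          (i1.const_mul _).integrableOn measurableSet_closedBall fun u' hu' => ?_
        rw [← Real.exp_add, ← Real.exp_add, Real.exp_le_exp]
        have h1 : dist u q / r ≤ 1 + dist u' q / r := by
          rw [div_le_iff₀ hr, add_mul, div_mul_cancel₀ _ hr.ne']
          linarith [dist_triangle u u' q, mem_closedBall'.1 hu']
        have h2 : dist u' q / r ≤ nm K ζ u' q / (4 * s) := by
          rw [div_le_div_iff₀ hr (by positivity)]
          nlinarith [dist_le_nm hK hζ u' q, nm_nonneg (by linarith : (0 : ℝ) ≤ K) ζ u' q]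
        have h3 : nm K ζ u' q / (2 * s) = 2 * (nm K ζ u' q / (4 * s)) := by field_simp; ring
        linarith
    _ ≤ ∫ u', Real.exp 1 * Real.exp (-(dist u q / r)) * Real.exp (-(nm K ζ u' q / (4 * s))) :=
        setIntegral_le_integral (i1.const_mul _) (.of_forall fun _ => by positivity)
    _ = _ := by rw [integral_const_mul, i2]

/-- centres of heavy separated balls are counted by the density -/
theorem count_le {X : Finset ι} {p : ι → V d × ℝ} {w : ι → ℝ} (hw : ∀ z ∈ X, 0 ≤ w z)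
    {K N r : ℝ} (hK : 0 < K) (hKr : K ≤ r) {𝒞 : Finset ι}
    (hN : ∀ c ∈ 𝒞, N ≤ ms X p w (closedBall (p c) K))
    (hsep : ∀ c ∈ 𝒞, ∀ c' ∈ 𝒞, c ≠ c' → K / 2 ≤ dist (p c) (p c')) (u : V d × ℝ) :
    N * ∑ c ∈ 𝒞, Real.exp (-(dist u (p c) / r)) ≤
      Real.exp 1 * 5 ^ (d + 1) * (r ^ (d + 1) * dens X p w r u) := by
  classical
  have hr : 0 < r := hK.trans_le hKr
  rw [dens, mul_div_cancel₀ _ (by positivity), Finset.mul_sum, Finset.mul_sum]
  calc _ ≤ ∑ c ∈ 𝒞, ∑ z ∈ X, if p z ∈ closedBall (p c) K then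
        Real.exp 1 * (w z * Real.exp (-(dist u (p z) / r))) else 0 := by
        refine Finset.sum_le_sum fun c hc => ?_
        refine (mul_le_mul_of_nonneg_right (hN c hc) (Real.exp_pos _).le).trans ?_
        rw [ms, Finset.sum_mul, Finset.sum_filter]
        refine Finset.sum_le_sum fun z hz => ?_
        split_ifs with h
        · rw [mul_left_comm]
          refine mul_le_mul_of_nonneg_left ?_ (hw z hz)
          rw [← Real.exp_add, Real.exp_le_exp]
          have : dist u (p z) / r ≤ 1 + dist u (p c) / r := by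
            rw [div_le_iff₀ hr, add_mul, div_mul_cancel₀ _ hr.ne']
            linarith [dist_triangle u (p c) (p z), mem_closedBall'.1 h]
          linarith
        · exact le_rfl
    _ ≤ _ := by
        rw [Finset.sum_comm]
        refine Finset.sum_le_sum fun z hz => ?_
        rw [← Finset.sum_filter, Finset.sum_const, nsmul_eq_mul]
        have h5 := card_le_of_sep_st (𝒞.filter fun c => p z ∈ closedBall (p c) K) p (p z) hK.le
          (half_pos hK) (fun c hc => mem_closedBall'.1 (Finset.mem_filter.1 hc).2)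
          fun c hc c' hc' => hsep c (Finset.mem_filter.1 hc).1 c' (Finset.mem_filter.1 hc').1
        rw [show 2 * K / (K / 2) + 1 = 5 by field_simp; norm_num] at h5
        have := hw z hz
        refine (mul_le_mul_of_nonneg_right h5 (by positivity)).trans_eq ?_
        ring

/-- smoothed number of centres in the tube of length `σ⁴` -/
noncomputable def mt (K : ℝ) (ζ : V d) (𝒞 : Finset ι) (p : ι → V d × ℝ) (σ : ℝ) (u : V d × ℝ) : ℝ :=
  ∑ c ∈ 𝒞, Real.exp (-(nm K ζ u (p c) / (2 * σ ^ 4)))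

/-- the (untruncated) tile weight at scale `σ⁴` -/
noncomputable def FF (K : ℝ) (ζ : V d) (𝒞 : Finset ι) (p : ι → V d × ℝ) (γ : V d × ℝ → ℝ) (σ : ℝ)
    (u : V d × ℝ) : ℝ :=
  mt K ζ 𝒞 p σ u * (K / σ ^ 2) ^ d * hh d (σ * γ u) + TT (σ * γ u)

variable {K σ r : ℝ} {ζ : V d} {𝒞 : Finset ι} {p : ι → V d × ℝ} {γ : V d × ℝ → ℝ}

theorem mt_nonneg (u : V d × ℝ) : 0 ≤ mt K ζ 𝒞 p σ u :=
  Finset.sum_nonneg fun _ _ => (Real.exp_pos _).le

theorem continuous_mt : Continuous (mt K ζ 𝒞 p σ) :=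
  continuous_finsetSum _ fun c _ => ((continuous_nm K ζ (p c)).div_const _).neg.rexp

theorem mt_lip (hK : 0 ≤ K) (hσ : 0 < σ) (u u' : V d × ℝ) :
    mt K ζ 𝒞 p σ u ≤ Real.exp (nm K ζ u u' / (2 * σ ^ 4)) * mt K ζ 𝒞 p σ u' := by
  unfold mt
  rw [Finset.mul_sum]
  refine Finset.sum_le_sum fun c _ => ?_
  rw [← Real.exp_add, Real.exp_le_exp, ← sub_eq_add_neg, ← sub_div, ← neg_div]
  gcongr
  linarith [nm_tri hK ζ u' u (p c), nm_comm K ζ u u']

theorem FF_nonneg (hK : 0 ≤ K) (hσ : 0 < σ) (hγ : ∀ u, 0 < γ u) (u : V d × ℝ) :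
    0 ≤ FF K ζ 𝒞 p γ σ u :=
  add_nonneg (mul_nonneg (mul_nonneg (mt_nonneg u) (by positivity))
    (hh_pos d (mul_pos hσ (hγ u))).le) (TT_nonneg _)

theorem continuous_FF (hσ : 0 < σ) (hγ : ∀ u, 0 < γ u) (hc : Continuous γ) :
    Continuous (FF K ζ 𝒞 p γ σ) := by
  have h1 : Continuous fun u => σ * γ u := continuous_const.mul hc
  have h2 : ∀ u, 1 + (σ * γ u) ^ 4 ≠ 0 := fun u => by positivity
  have h3 : Continuous fun u => 1 + (σ * γ u) ^ 4 := continuous_const.add (h1.pow 4)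
  exact ((continuous_mt.mul continuous_const).mul (((continuous_const.div h3 h2).pow d).div h1
    fun u => (mul_pos hσ (hγ u)).ne')).add
    (((continuous_const.mul (h1.pow 4)).div h3 h2).pow 2)

theorem FF_lip (hK : 0 ≤ K) (hσ : 0 < σ) (hr : 0 < r) (hγ : ∀ u, 0 < γ u)
    (hl : ∀ u u', γ u ≤ Real.exp (dist u u' / r) * γ u') (u u' : V d × ℝ) :
    FF K ζ 𝒞 p γ σ u ≤ Real.exp (nm K ζ u u' / (2 * σ ^ 4) + (4 * d + 8) * (dist u u' / r)) *
      FF K ζ 𝒞 p γ σ u' := by
  have he : 1 ≤ Real.exp (dist u u' / r) := Real.one_le_exp (by positivity)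
  have h1 := hh_le d (mul_pos hσ (hγ u)) (mul_pos hσ (hγ u')) he (by
    rw [mul_left_comm, dist_comm]; exact mul_le_mul_of_nonneg_left (hl u' u) hσ.le)
  have h2 := TT_le d (mul_pos hσ (hγ u)) (mul_pos hσ (hγ u')) he (by
    rw [mul_left_comm]; exact mul_le_mul_of_nonneg_left (hl u u') hσ.le)
  have h3 := mt_lip (ζ := ζ) (𝒞 := 𝒞) (p := p) hK hσ u u'
  have h4 : 1 ≤ Real.exp (nm K ζ u u' / (2 * σ ^ 4)) :=
    Real.one_le_exp (div_nonneg (nm_nonneg hK ζ u u') (by positivity))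
  rw [Real.exp_add, show (4 * d + 8 : ℝ) = ((4 * d + 8 : ℕ) : ℝ) by push_cast; ring,
    Real.exp_nat_mul, FF, FF, mul_add]
  refine add_le_add ?_ (h2.trans ?_)
  · refine (mul_le_mul (mul_le_mul_of_nonneg_right h3 (by positivity)) h1
      (hh_pos d (mul_pos hσ (hγ u))).le
      (mul_nonneg (mul_nonneg (by positivity) (mt_nonneg u')) (by positivity))).trans_eq ?_
    ring
  · rw [mul_assoc]
    exact le_mul_of_one_le_left (mul_nonneg (by positivity) (TT_nonneg _)) h4

/-- the constant in the average of one scale -/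
noncomputable def c1 (d : ℕ) : ℝ :=
  Real.exp 1 ^ (4 * d + 8) * (Real.exp 1 * (Real.exp 1 * 5 ^ (d + 1)) * 4 ^ (d + 1) * c0 d * 6 +
    (volume (ball (0 : V d × ℝ) 1)).toReal * 27)

theorem c1_nonneg (d : ℕ) : 0 ≤ c1 d := by
  have := c0_nonneg d
  unfold c1; positivity

/-- the average of one scale -/
theorem bavg_FF_le (hd : 1 ≤ d) (hK : 1 ≤ K) (hζ : ‖ζ‖ ≤ 4) (hσ : 0 < σ) (hr : 32 * σ ^ 4 ≤ r)
    (hγ : ∀ u, 0 < γ u) (hc : Continuous γ)
    (hl : ∀ u u', γ u ≤ Real.exp (dist u u' / r) * γ u') (u : V d × ℝ)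
    (hcnt : ∑ c ∈ 𝒞, Real.exp (-(dist u (p c) / r)) ≤
      Real.exp 1 * 5 ^ (d + 1) * (r ^ (d + 1) * (γ u ^ 2) ^ (d + 2))) :
    bavg (fun u' => min 1 (FF K ζ 𝒞 p γ σ u') / σ ^ 4) r u ≤
      c1 d * γ u ^ 4 * (σ * γ u / (1 + σ * γ u) ^ 2) := by
  have hs : 0 < σ ^ 4 := by positivity
  have hr0 : 0 < r := by linarith
  have hK0 : 0 < K := by linarith
  have hy := mul_pos hσ (hγ u)
  have hg := hγ u
  have he : 1 ≤ Real.exp 1 := Real.one_le_exp zero_le_one
  set E := Real.exp 1 ^ (4 * d + 8) with hE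
  have hE0 : 0 ≤ E := by positivity
  set a := (K / σ ^ 2) ^ d * (E * hh d (σ * γ u)) / σ ^ 4 with ha
  have ha0 : 0 ≤ a := by have := hh_pos d hy; positivity
  have hcm : Continuous fun u' => a * mt K ζ 𝒞 p σ u' := continuous_const.mul continuous_mt
  refine (bavg_mono (W' := fun u' => a * mt K ζ 𝒞 p σ u' + E * TT (σ * γ u) / σ ^ 4)
    ((continuous_const.min (continuous_FF hσ hγ hc)).div_const _) (hcm.add continuous_const)
    hr0.le u fun u' hu' => ?_).trans ?_
  · have h0 : Real.exp (dist u u' / r) ≤ Real.exp 1 :=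
      Real.exp_le_exp.2 ((div_le_one hr0).2 (mem_closedBall'.1 hu'))
    have h1 := hh_le d (mul_pos hσ (hγ u')) hy he (by
      rw [mul_left_comm]
      exact mul_le_mul_of_nonneg_left ((hl u u').trans
        (mul_le_mul_of_nonneg_right h0 (hγ u').le)) hσ.le)
    have h2 := TT_le d (mul_pos hσ (hγ u')) hy he (by
      rw [mul_left_comm]
      refine mul_le_mul_of_nonneg_left ((hl u' u).trans ?_) hσ.le
      rw [dist_comm]
      exact mul_le_mul_of_nonneg_right h0 hg.le)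
    rw [ha, div_mul_eq_mul_div, ← add_div]
    refine div_le_div_of_nonneg_right ((min_le_right _ _).trans (add_le_add ?_ h2)) hs.le
    rw [mul_comm _ (mt K ζ 𝒞 p σ u'), ← mul_assoc]
    exact mul_le_mul_of_nonneg_left h1 (mul_nonneg (mt_nonneg u') (by positivity))
  · rw [bavg_add hcm continuous_const, bavg_const _ hr0, bavg_const_mul]
    have h1 : bavg (mt K ζ 𝒞 p σ) r u ≤ Real.exp 1 * (Real.exp 1 * 5 ^ (d + 1)) *
        (γ u ^ 2) ^ (d + 2) * ((4 * σ ^ 4 / K) ^ d * (4 * σ ^ 4) * c0 d) := by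
      rw [bavg, div_le_iff₀ (by positivity)]
      unfold mt
      rw [integral_finsetSum _ fun c _ => (integral_nm hK (by positivity) hζ (p c)).1.integrableOn]
      refine (Finset.sum_le_sum fun c _ => setIntegral_nm_le hK hs hr hζ u (p c)).trans ?_
      rw [← Finset.sum_mul, ← Finset.mul_sum]
      have := c0_nonneg d
      refine (mul_le_mul_of_nonneg_right (mul_le_mul_of_nonneg_left hcnt (by positivity))
        (by positivity)).trans_eq ?_
      ring
    have h2 : a * (Real.exp 1 * (Real.exp 1 * 5 ^ (d + 1)) *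
        (γ u ^ 2) ^ (d + 2) * ((4 * σ ^ 4 / K) ^ d * (4 * σ ^ 4) * c0 d)) =
        E * (Real.exp 1 * (Real.exp 1 * 5 ^ (d + 1)) * 4 ^ (d + 1) * c0 d) * γ u ^ 4 *
          (((σ * γ u) ^ 2) ^ d * hh d (σ * γ u)) := by
      have e : (K / σ ^ 2) ^ d * (γ u ^ 2) ^ d * (4 * σ ^ 4 / K) ^ d =
          4 ^ d * ((σ * γ u) ^ 2) ^ d := by
        rw [← mul_pow, ← mul_pow, ← mul_pow]; congr 1; field_simp
      rw [ha, pow_add (γ u ^ 2) d 2, pow_succ 4 d]
      field_simp
      linear_combination (E * c0 d * hh d (σ * γ u)) * e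
    have h3 := mul_le_mul_of_nonneg_left (pow_hh_le hd hy) (show 0 ≤
      E * (Real.exp 1 * (Real.exp 1 * 5 ^ (d + 1)) * 4 ^ (d + 1) * c0 d) * γ u ^ 4 by
        have := c0_nonneg d; positivity)
    have h4 : E * TT (σ * γ u) / σ ^ 4 ≤ E * (γ u ^ 4 * (27 * (σ * γ u / (1 + σ * γ u) ^ 2))) := by
      rw [mul_div_assoc]
      refine mul_le_mul_of_nonneg_left ?_ hE0
      rw [div_le_iff₀ hs]
      refine (TT_div_le hy).trans_eq ?_
      ring
    have h5 := mul_le_mul_of_nonneg_left h4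
      (ENNReal.toReal_nonneg (a := volume (ball (0 : V d × ℝ) 1)))
    have h6 := mul_le_mul_of_nonneg_left h1 ha0
    rw [h2] at h6
    rw [c1, ← hE]
    linarith

end Crest.Agent.N76.II.St4
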