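import Crest.Agent.N76.II.Dens
import Crest.Agent.N76.II.Net

/-! # Row 76 (S0101), leaf `Stop`: scalar lemmas and the tube seminorm (helper6). -/

set_option autoImplicit false

open MeasureTheory Set Metric
open scoped ENNReal RealInnerProductSpace

namespace Crest.Agent.N76.II.St4

open Crest.Agent.N76.Red (V ph)
open Crest.Agent.N76.G

/-- telescoping bound for a geometric sequence -/
theorem tele {l y : ℝ} (hl : 1 < l) (hy : 0 < y) (n : ℕ) :
    ∑ j ∈ Finset.range n, y * l ^ j / (1 + y * l ^ j) ^ 2 ≤ l / (l - 1) := by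
  have h0 : 0 < l - 1 := by linarith
  have key : ∀ n : ℕ, ∑ j ∈ Finset.range n, y * l ^ j / (1 + y * l ^ j) ^ 2 ≤
      l / (l - 1) * (y * l ^ n / (1 + y * l ^ n)) := by
    intro n
    induction n with
    | zero => simp only [Finset.range_zero, Finset.sum_empty]; positivity
    | succ n ih =>
      rw [Finset.sum_range_succ, pow_succ l n, ← mul_assoc]
      have hz : 0 < y * l ^ n := by positivity
      generalize y * l ^ n = z at hz ih
      have h1 : z / (1 + z) ^ 2 ≤ l / (l - 1) * (z * l / (1 + z * l) - z / (1 + z)) := by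
        have e : l / (l - 1) * (z * l / (1 + z * l) - z / (1 + z)) =
            z / (1 + z) * (l / (1 + z * l)) := by
          field_simp; ring
        rw [e, sq, ← div_div, div_eq_mul_one_div (z / (1 + z))]
        refine mul_le_mul_of_nonneg_left ?_ (by positivity)
        rw [div_le_div_iff₀ (by positivity) (by positivity)]
        nlinarith
      linarith [mul_sub (l / (l - 1)) (z * l / (1 + z * l)) (z / (1 + z))]
  refine (key n).trans (mul_le_of_le_one_right (by positivity) ?_)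
  rw [div_le_one (by positivity)]
  linarith

/-- weight of a heavy tile -/
noncomputable def hh (d : ℕ) (y : ℝ) : ℝ := (2 / (1 + y ^ 4)) ^ d / y

/-- weight of a top tile -/
noncomputable def TT (y : ℝ) : ℝ := (3 * y ^ 4 / (1 + y ^ 4)) ^ 2

theorem hh_pos (d : ℕ) {y : ℝ} (hy : 0 < y) : 0 < hh d y := by unfold hh; positivity

theorem TT_nonneg (y : ℝ) : 0 ≤ TT y := sq_nonneg _

theorem hh_le (d : ℕ) {y y' e : ℝ} (hy : 0 < y) (hy' : 0 < y') (he : 1 ≤ e) (h : y' ≤ e * y) :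
    hh d y ≤ e ^ (4 * d + 8) * hh d y' := by
  have h1 : 2 / (1 + y ^ 4) ≤ e ^ 4 * (2 / (1 + y' ^ 4)) := by
    rw [← mul_div_assoc, div_le_div_iff₀ (by positivity) (by positivity)]
    have : y' ^ 4 ≤ e ^ 4 * y ^ 4 := by rw [← mul_pow]; gcongr
    have : 1 ≤ e ^ 4 := one_le_pow₀ he
    nlinarith
  have h2 : 1 / y ≤ e ^ 8 * (1 / y') := by
    rw [← mul_div_assoc, div_le_div_iff₀ hy hy']
    have : e ≤ e ^ 8 := le_self_pow₀ he (by norm_num)
    nlinarith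
  unfold hh
  rw [div_eq_mul_one_div _ y, div_eq_mul_one_div _ y', pow_add, pow_mul, mul_mul_mul_comm,
    ← mul_pow]
  gcongr

theorem TT_le (d : ℕ) {y y' e : ℝ} (hy : 0 < y) (hy' : 0 < y') (he : 1 ≤ e) (h : y ≤ e * y') :
    TT y ≤ e ^ (4 * d + 8) * TT y' := by
  have h1 : 3 * y ^ 4 / (1 + y ^ 4) ≤ e ^ 4 * (3 * y' ^ 4 / (1 + y' ^ 4)) := by
    rw [← mul_div_assoc, div_le_div_iff₀ (by positivity) (by positivity)]
    have h3 : y ^ 4 ≤ e ^ 4 * y' ^ 4 := by rw [← mul_pow]; gcongr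
    have h4 : 1 ≤ e ^ 4 := one_le_pow₀ he
    have h5 : 0 < y ^ 4 := by positivity
    have h6 : 0 < y' ^ 4 := by positivity
    have : y ^ 4 * y' ^ 4 ≤ e ^ 4 * (y ^ 4 * y' ^ 4) := le_mul_of_one_le_left (by positivity) h4
    nlinarith
  unfold TT
  calc _ ≤ (e ^ 4 * (3 * y' ^ 4 / (1 + y' ^ 4))) ^ 2 := by gcongr
    _ = e ^ 8 * (3 * y' ^ 4 / (1 + y' ^ 4)) ^ 2 := by ring
    _ ≤ _ := mul_le_mul_of_nonneg_right (pow_le_pow_right₀ he (by omega)) (sq_nonneg _)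

theorem one_le_TT {y : ℝ} (h : 1 / 2 ≤ y ^ 4) : 1 ≤ TT y := by
  refine one_le_pow₀ ?_
  rw [le_div_iff₀ (by positivity)]
  linarith

/-- below the stopping scale -/
theorem light (d : ℕ) {y m : ℝ} (hy : 0 < y) (hm : 0 ≤ m) (h : m * hh d y + TT y < 1) :
    m ≤ 4 * (y / (1 + y) ^ 2) := by
  have h0 : 0 ≤ m * hh d y := mul_nonneg hm (hh_pos d hy).le
  have h1 : y ^ 4 < 1 / 2 := by
    by_contra hc
    linarith [one_le_TT (not_lt.1 hc)]
  have h2 : y ≤ 1 := by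
    by_contra hc
    linarith [one_le_pow₀ (n := 4) (not_le.1 hc).le]
  have h3 : 1 / y ≤ hh d y := by
    refine div_le_div_of_nonneg_right (one_le_pow₀ ?_) hy.le
    rw [le_div_iff₀ (by positivity)]
    linarith
  have h4 : m ≤ y := by
    have : m * (1 / y) ≤ 1 := by nlinarith [TT_nonneg y]
    rwa [mul_one_div, div_le_one hy] at this
  refine h4.trans ?_
  rw [← mul_div_assoc, le_div_iff₀ (by positivity)]
  have : (1 + y) ^ 2 ≤ 4 := by nlinarith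
  nlinarith

theorem sq_le_three (y : ℝ) : (1 + y) ^ 2 ≤ 3 * (1 + y ^ 4) := by
  nlinarith [sq_nonneg (y - 1), sq_nonneg (y ^ 2 - 1), sq_nonneg (y ^ 2)]

theorem pow_hh_le {d : ℕ} (hd : 1 ≤ d) {y : ℝ} (hy : 0 < y) :
    (y ^ 2) ^ d * hh d y ≤ 6 * (y / (1 + y) ^ 2) := by
  have h1 : y ^ 2 * (2 / (1 + y ^ 4)) ≤ 1 := by
    rw [← mul_div_assoc, div_le_one (by positivity)]
    nlinarith [sq_nonneg (y ^ 2 - 1)]
  unfold hh
  rw [← mul_div_assoc, ← mul_pow, div_le_iff₀ hy]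
  refine (pow_le_of_le_one (by positivity) h1 (by omega)).trans ?_
  rw [← mul_div_assoc, ← mul_div_assoc, div_mul_eq_mul_div,
    div_le_div_iff₀ (by positivity) (by positivity)]
  nlinarith [mul_le_mul_of_nonneg_left (sq_le_three y) (sq_nonneg y)]

theorem TT_div_le {y : ℝ} (hy : 0 < y) : TT y ≤ y ^ 4 * (27 * (y / (1 + y) ^ 2)) := by
  have h1 : y ^ 3 ≤ 1 + y ^ 4 := by
    rcases le_total y 1 with h | h
    · linarith [pow_le_one₀ (n := 3) hy.le h, pow_pos hy 4]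
    · linarith [pow_le_pow_right₀ h (show 3 ≤ 4 by norm_num)]
  have h2 : y ^ 3 * (1 + y) ^ 2 ≤ (1 + y ^ 4) * (3 * (1 + y ^ 4)) :=
    mul_le_mul h1 (sq_le_three y) (by positivity) (by positivity)
  unfold TT
  rw [div_pow, ← mul_div_assoc, ← mul_div_assoc, div_le_div_iff₀ (by positivity) (by positivity)]
  nlinarith [mul_le_mul_of_nonneg_left h2 (pow_pos hy 5).le]

variable {d : ℕ}

/-- the tube seminorm -/
noncomputable def nm (K : ℝ) (ζ : V d) (u u' : V d × ℝ) : ℝ :=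
  K * ‖(lin u ζ - lin u' ζ).1‖ + |u.2 - u'.2|

theorem lin_sub (ζ : V d) (u u' : V d × ℝ) :
    lin u ζ - lin u' ζ = (u.1 - u'.1 + (2 * (u.2 - u'.2)) • ζ, 0) := by
  simp only [lin, Prod.mk_sub_mk, sub_self, mul_sub, sub_smul]
  congr 1; abel

theorem nm_nonneg {K : ℝ} (hK : 0 ≤ K) (ζ : V d) (u u' : V d × ℝ) : 0 ≤ nm K ζ u u' := by
  unfold nm; positivity

theorem nm_comm (K : ℝ) (ζ : V d) (u u' : V d × ℝ) : nm K ζ u u' = nm K ζ u' u := by
  unfold nm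
  rw [abs_sub_comm, Prod.fst_sub, Prod.fst_sub, norm_sub_rev]

theorem nm_tri {K : ℝ} (hK : 0 ≤ K) (ζ : V d) (u u' q : V d × ℝ) :
    nm K ζ u q ≤ nm K ζ u u' + nm K ζ u' q := by
  unfold nm
  simp only [Prod.fst_sub]
  have h1 := mul_le_mul_of_nonneg_left
    (norm_sub_le_norm_sub_add_norm_sub (lin u ζ).1 (lin u' ζ).1 (lin q ζ).1) hK
  linarith [abs_sub_le u.2 u'.2 q.2]

theorem continuous_nm (K : ℝ) (ζ : V d) (q : V d × ℝ) : Continuous fun u => nm K ζ u q := by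
  unfold nm lin; fun_prop

theorem norm_shear_le {ζ : V d} (hζ : ‖ζ‖ ≤ 4) (t : ℝ) : ‖(2 * t) • ζ‖ ≤ 8 * |t| := by
  rw [norm_smul, Real.norm_eq_abs, abs_mul, abs_two]
  nlinarith [abs_nonneg t]

theorem dist_le_nm {K : ℝ} (hK : 1 ≤ K) {ζ : V d} (hζ : ‖ζ‖ ≤ 4) (u u' : V d × ℝ) :
    dist u u' ≤ 8 * nm K ζ u u' := by
  unfold nm
  rw [lin_sub, Prod.dist_eq, dist_eq_norm, Real.dist_eq]
  have h1 := norm_shear_le hζ (u.2 - u'.2)
  have h2 := norm_sub_le (u.1 - u'.1 + (2 * (u.2 - u'.2)) • ζ) ((2 * (u.2 - u'.2)) • ζ)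
  rw [add_sub_cancel_right] at h2
  have h3 := norm_nonneg (u.1 - u'.1 + (2 * (u.2 - u'.2)) • ζ)
  have h4 := le_mul_of_one_le_left h3 hK
  refine max_le ?_ ?_ <;> simp only <;> linarith [abs_nonneg (u.2 - u'.2)]

theorem nm_le_dist {K : ℝ} (hK : 1 ≤ K) {ζ : V d} (hζ : ‖ζ‖ ≤ 4) (u u' : V d × ℝ) :
    nm K ζ u u' ≤ 10 * K * dist u u' := by
  unfold nm
  rw [lin_sub]
  have h1 := norm_shear_le hζ (u.2 - u'.2)
  have h2 := norm_add_le (u.1 - u'.1) ((2 * (u.2 - u'.2)) • ζ)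
  have h3 : ‖u.1 - u'.1‖ ≤ dist u u' := by rw [← dist_eq_norm, Prod.dist_eq]; exact le_max_left _ _
  have h4 : |u.2 - u'.2| ≤ dist u u' := by rw [← Real.dist_eq, Prod.dist_eq]; exact le_max_right _ _
  have h5 := le_mul_of_one_le_left (dist_nonneg (x := u) (y := u')) hK
  have h6 : K * ‖u.1 - u'.1 + (2 * (u.2 - u'.2)) • ζ‖ ≤ K * (9 * dist u u') :=
    mul_le_mul_of_nonneg_left (by linarith) (by linarith)
  simp only
  linarith

/-- the overlap in the time shell `σ⁴ < |dt| ≤ 2 σ⁴` -/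
theorem Gs_le {K σ : ℝ} (hK : 0 < K) (hσ : 0 < σ) (hKσ : K ^ 2 ≤ σ ^ 4) (ζ : V d)
    (u u' : V d × ℝ) (h1 : σ ^ 4 ≤ |u.2 - u'.2|) (h2 : |u.2 - u'.2| ≤ 2 * σ ^ 4) :
    Gs K (Real.pi / 4) u u' ζ ≤
      Real.exp 2 * (Real.exp (-(nm K ζ u u' / (2 * σ ^ 4))) * (K / σ ^ 2) ^ d) := by
  have hs : 0 < σ ^ 4 := by positivity
  have e1 : (σ ^ 4) ^ 2 ≤ (u.2 - u'.2) ^ 2 := by rw [← sq_abs (u.2 - u'.2)]; gcongr
  have e2 : (u.2 - u'.2) ^ 2 ≤ (2 * σ ^ 4) ^ 2 := by rw [← sq_abs (u.2 - u'.2)]; gcongr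
  have hsig : 0 < sig K u.2 K u'.2 := by unfold sig; positivity
  have hp : pre d K u.2 K u'.2 ≤ (K / σ ^ 2) ^ d := by
    have : 4 * K ^ 2 * K ^ 2 / sig K u.2 K u'.2 ≤ (K / σ ^ 2) ^ 4 := by
      rw [div_pow, div_le_div_iff₀ hsig (by positivity), sig]
      have := mul_le_mul_of_nonneg_left e1 (pow_pos hK 4).le
      nlinarith [pow_pos hK 8]
    refine (Real.rpow_le_rpow (by positivity) this (by positivity)).trans_eq ?_
    rw [← Real.rpow_natCast _ 4, ← Real.rpow_mul (by positivity), ← Real.rpow_natCast _ d]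
    congr 1; push_cast; ring
  set D := ‖(lin u ζ - lin u' ζ).1‖ with hD
  have hD0 : 0 ≤ D := norm_nonneg _
  have hq : (K * D / σ ^ 4) ^ 2 / 10 ≤ Qf K u.2 K u'.2 (lin u ζ - lin u' ζ) := by
    have e : Qf K u.2 K u'.2 (lin u ζ - lin u' ζ) = 2 * (K * D) ^ 2 / sig K u.2 K u'.2 := by
      rw [hD, Qf, lin_sub]
      simp only [pos, smul_zero, sub_zero, norm_zero]
      ring
    rw [e, div_pow, div_div, div_le_div_iff₀ (by positivity) hsig, sig]
    have e3 : (K ^ 2 + K ^ 2) ^ 2 ≤ (2 * σ ^ 4) ^ 2 := by gcongr; linarith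
    have := mul_le_mul_of_nonneg_left (add_le_add e3 (mul_le_mul_of_nonneg_left e2
      (by norm_num : (0 : ℝ) ≤ 4))) (sq_nonneg (K * D))
    nlinarith
  rw [Gs, ← mul_assoc, mul_comm, ← Real.exp_add]
  refine mul_le_mul ?_ hp (Real.rpow_nonneg (by positivity) _) (Real.exp_pos _).le
  rw [Real.exp_le_exp]
  have e4 : nm K ζ u u' / (2 * σ ^ 4) ≤ K * D / σ ^ 4 / 2 + 1 := by
    rw [nm, ← hD, div_le_iff₀ (by positivity)]
    have : K * D / σ ^ 4 / 2 * (2 * σ ^ 4) = K * D := by field_simp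
    linarith [add_mul (K * D / σ ^ 4 / 2) 1 (2 * σ ^ 4)]
  generalize K * D / σ ^ 4 = x at hq e4
  have := mul_le_mul Real.pi_gt_three.le hq (by positivity) Real.pi_pos.le
  nlinarith [sq_nonneg (x - 4)]

end Crest.Agent.N76.II.St4
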